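import Vale.Agent.P366.H896.S.Trap
import Vale.Agent.P366.H222.K.Theta
import Vale.Agent.P366.H222.K.Rest
import Vale.Agent.P366.Kerr.DefsK
import Vale.Agent.P366.Kerr.DefsD
import Vale.Agent.P366.H208.S.Frame

/-! Adding a trace-free tensor `k` to the second fundamental form: the boundary inequality. -/

open MeasureTheory Metric Filter Topology Set
open scoped ContDiff ENNReal

noncomputable section
namespace Vale.Agent.P366.SH

open Vale.Agent.P366 (pd E)
open Vale.Agent.P366.H353.N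
open Vale.Agent.P366.H353.N.X3
open Vale.Agent.P366.Kerr (NullCone Psi pt sp sgn indG indK ksL IsKS IsGraph IsSliceL lapse resL tng
  con alpha beta lieG inn dif IsRef IsFut)
open Vale.Agent.P366.KSN (Y dts sg posU' dts_pos)
open Vale.Agent.P366.KSL (bdr_grad bdr_dF_pos tau_pos_bdr mem_Y dom_iff qT wS xi)
open Vale.Agent.P366.KSD (NN aa)

variable {n : ℕ} {C : NullCone n} {l : Fin (n + 1) → E (n + 1) → ℝ} {V : E (n + 1) → ℝ}
  {f : E n → ℝ} {D D₀ : Stmt.Exterior n} {x y : E n}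

/-- the algebraic data of the hypersurface at a point of the boundary -/
theorem bdr_pt [Fact (3 ≤ n)] (hS : IsSliceL C l V f D) (hx : ‖x‖ = 1) :
    ∃ (p : H375.Pt n) (k0 : ℝ), 0 < k0 ∧ k0 = l 0 (pt (f (Y C.H x (C.U x))) (Y C.H x (C.U x))) ∧
      (∀ i : Fin n, l i.succ (pt (f (Y C.H x (C.U x))) (Y C.H x (C.U x))) = k0 * x i) ∧
      (∀ i, p.f i = Stmt.pd i f (Y C.H x (C.U x))) ∧ (∀ i, p.u i = x i) ∧
      p.v = V (pt (f (Y C.H x (C.U x))) (Y C.H x (C.U x))) * k0 ^ 2 ∧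
      p.S = 1 + ∑ i, x i * pd i f (Y C.H x (C.U x)) ∧
      lapse (ksL l V) f (Y C.H x (C.U x)) = 1 / p.s ∧
      (∀ i j, Stmt.up D.g i j (Y C.H x (C.U x)) = p.U i j) ∧
      (∀ i, Stmt.nrm D.g D.F i (Y C.H x (C.U x)) = p.N i) ∧
      (∀ i, x i - C.toDat.b x i = p.F i / p.S) := by
  have hx0 := ne_zero_of_one hx
  have h0 := posU' C hx
  have hm := mem_Y hS.dom hx (le_refl (C.U x))
  have hf := hS.smf _ hm
  have hK := hS.ks _ hm
  have hfp : ∀ i, Stmt.pd i f (Y C.H x (C.U x)) = pd i f (Y C.H x (C.U x)) := fun i =>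
    KSN.X2.stmt_pd' hf i
  have htp := tau_pos_bdr hS hx
  have hfb : f (Y C.H x (C.U x)) = - C.U x := by
    have := KSL.bd_Y (β := fun z => - C.U z) hS.bdr hx
    rw [this, KSN.U_smul C hx0 h0]
  have hdet := KSL.det_bdr hS hx
  rw [← hfb] at hdet
  have hn : ∀ i : Fin n, l i.succ (pt (f (Y C.H x (C.U x))) (Y C.H x (C.U x))) =
      l 0 (pt (f (Y C.H x (C.U x))) (Y C.H x (C.U x))) * x i := fun i => by
    have h := hS.nor (C.U x • x) (smul_ne_zero h0.ne' hx0)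
      (by rw [KSN.norm_smul_unit hx h0.le, KSN.U_smul C hx0 h0]) i
    rw [KSN.U_smul C hx0 h0, KSN.Y_eq C hx h0, KSN.norm_smul_unit hx h0.le] at h
    rw [hfb, h]
    have : (C.U x • x) i / C.U x = x i := by
      have : (C.U x • x) i = C.U x * x i := by simp
      rw [this]; field_simp
    rw [this]
  obtain ⟨r, hr, hF⟩ := dF_bdr hS hx
  obtain ⟨T, hTA, hTb, -⟩ := toTen C.toDat
  have B := KSN.W.mkB hS hTA hTb
  have htt : tt C.H C.U f x = 1 + ∑ i, x i * pd i f (Y C.H x (C.U x)) := by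
    rw [← KSN.W.zz_Y C hx]
    unfold tt X3.Fv
    simp only [nv_one hx]
  have hcob : ∀ i, x i - C.toDat.b x i =
      (pd i f (Y C.H x (C.U x)) + x i) / tt C.H C.U f x := fun i => by
    have h1 := B.bb_eq hx i
    rw [← hTb, ← h1]
    have e3 : Fv C.H C.U f i x = pd i f (Y C.H x (C.U x)) := by
      rw [← KSN.W.zz_Y C hx]; rfl
    have htp' : 0 < tt C.H C.U f x := B.tt_pos hx0
    unfold bb
    rw [nv_one hx, e3]
    field_simp
    ring
  rw [htt] at hcob
  have hmet := hS.met _ hm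
  generalize Y C.H x (C.U x) = y at *
  obtain ⟨τ, hτ⟩ : ∃ τ, τ = 1 + ∑ i, x i * pd i f y := ⟨_, rfl⟩
  rw [← hτ] at hdet htp hcob ⊢
  obtain ⟨k0, hk0⟩ : ∃ k0, k0 = l 0 (pt (f y) y) := ⟨_, rfl⟩
  have hk0p : 0 < k0 := hk0 ▸ hK.fut
  rw [← hk0] at hdet hn
  obtain ⟨v, hv⟩ : ∃ v, v = V (pt (f y) y) * k0 ^ 2 := ⟨_, rfl⟩
  rw [← hv] at hdet
  have hxx := Shell.sum_xx hx
  have hco : ∑ i, Stmt.pd i f y * x i = τ - 1 := by
    rw [hτ]
    have : ∑ i, Stmt.pd i f y * x i = ∑ i, x i * pd i f y :=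
      Finset.sum_congr rfl fun i _ => by rw [hfp]; ring
    rw [this]; ring
  have hfsq : ∑ i, Stmt.pd i f y * Stmt.pd i f y = ∑ i, pd i f y ^ 2 :=
    Finset.sum_congr rfl fun i _ => by rw [hfp]; ring
  obtain ⟨p, pf, pu, pv, pS, pc, ps⟩ : ∃ p : H375.Pt n, p.f = (fun i => Stmt.pd i f y) ∧
      p.u = (fun i => x i) ∧ p.v = v ∧ p.S = τ ∧ p.c = 1 - ∑ i, pd i f y ^ 2 ∧
      p.s = √(1 - ∑ i, pd i f y ^ 2 + v * τ ^ 2) :=
    ⟨{ f := fun i => Stmt.pd i f y
       u := fun i => x i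
       v := v
       S := τ
       c := 1 - ∑ i, pd i f y ^ 2
       s := √(1 - ∑ i, pd i f y ^ 2 + v * τ ^ 2)
       uu := hxx
       fu := hco
       ff := by rw [hfsq]; ring
       hs := Real.sq_sqrt hdet.le
       s0 := Real.sqrt_pos.2 hdet
       S0 := htp }, rfl, rfl, rfl, rfl, rfl, rfl⟩
  have pF : ∀ i, p.F i = pd i f y + x i := fun i => by
    unfold H375.Pt.F
    rw [pf, pu]
    show Stmt.pd i f y + x i = _
    rw [hfp]
  have hLi : ∀ i, KSN.W.Li l f y i = k0 * p.F i := fun i => by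
    unfold KSN.W.Li
    rw [hn, pF, ← hk0, hfp]
    ring
  have hnull : ∑ a, KSN.X1.sgn a * (l a (pt (f y) y) * l a (pt (f y) y)) = 0 := by
    rw [← hK.null.self_of_nhds]
    refine Finset.sum_congr rfl fun a _ => ?_
    unfold KSN.X1.sgn Kerr.sgn
    ring
  have hG : ∀ q : E (n + 1), ∀ a b, ksL l V q a b = (if a = b then KSN.X1.sgn a else 0) +
      V q * (l a q * l b q) := fun q a b => by
    unfold ksL KSN.X1.sgn Kerr.sgn
    ring
  have hSl : KSN.W.Sl l f y = k0 * τ := by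
    unfold KSN.W.Sl
    simp only [hn]
    rw [← hk0, hτ, mul_add, mul_one, Finset.mul_sum]
    congr 1
    exact Finset.sum_congr rfl fun i _ => by rw [hfp]; ring
  have hlapse : lapse (ksL l V) f y = 1 / p.s := by
    rw [KSN.W.lapse_l (hG _) hnull, hSl, hfsq, ps, hv]
    congr 3
    ring
  have hgx : ∀ i j, D.g y i j = p.G i j := fun i j => by
    rw [hmet i j, KSN.W.indG_l (hG _) i j]
    unfold H375.Pt.G
    rw [hLi, hLi, pv, hv, pf]
    ring
  have hup : ∀ i j, Stmt.up D.g i j y = p.U i j := by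
    intro i j
    have e : Stmt.mat D.g y * (Matrix.of fun i j => p.U i j) = 1 := by
      ext i k
      rw [Matrix.mul_apply]
      have : ∀ j, Stmt.mat D.g y i j * (Matrix.of fun i j => p.U i j) j k =
          p.G i j * p.U j k := by
        intro j
        rw [Matrix.of_apply]
        unfold Stmt.mat
        rw [hgx]
      simp only [this, p.GU]
      unfold H375.dl
      rw [Matrix.one_apply]
    unfold Stmt.up
    rw [Matrix.inv_eq_right_inv e, Matrix.of_apply]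
  have hFp : ∀ i, Stmt.pd i D.F y = r * p.F i := fun i => by
    rw [hF, hfp, pF]
  have hcn : Stmt.covNorm D.g (fun j => Stmt.pd j D.F) y = r * (p.S / p.s) := by
    unfold Stmt.covNorm
    simp only [hup, hFp]
    have e : ∑ i, ∑ j, p.U i j * (r * p.F i) * (r * p.F j) =
        r ^ 2 * ∑ i, ∑ j, p.U i j * p.F i * p.F j := by
      simp only [Finset.mul_sum]
      exact Finset.sum_congr rfl fun i _ => Finset.sum_congr rfl fun j _ => by ring
    rw [e, p.FUF, ← mul_pow]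
    exact Real.sqrt_sq (mul_pos hr (div_pos p.S0 p.s0)).le
  have hnrm : ∀ i, Stmt.nrm D.g D.F i y = p.N i := by
    intro i
    unfold Stmt.nrm
    rw [hcn]
    simp only [hup, hFp]
    have e : ∑ j, p.U i j * (r * p.F j) = r * ∑ j, p.U i j * p.F j := by
      simp only [Finset.mul_sum]
      exact Finset.sum_congr rfl fun j _ => by ring
    rw [e, p.UF]
    have hs0 : p.s ≠ 0 := p.s0.ne'
    have hS0 : p.S ≠ 0 := p.S0.ne'
    have hr0 : r ≠ 0 := hr.ne'
    unfold H375.Pt.N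
    field_simp
  refine ⟨p, k0, hk0p, hk0, hn, fun i => by rw [pf], fun i => by rw [pu], by rw [pv, hv], pS,
    hlapse, hup, hnrm, fun i => ?_⟩
  rw [hcob i, pF i, pS]

/-! ### `α + β(ν)` -/

/-- the contraction `l(ξ)` -/
lemma l_xi {p : E (n + 1)} {ξ : Fin (n + 1) → ℝ} {k0 : ℝ} {x : Fin n → ℝ} (h0 : k0 = l 0 p)
    (h : ∀ i : Fin n, l i.succ p = k0 * x i) :
    ∑ a, l a p * ξ a = k0 * (ξ 0 + ∑ i : Fin n, x i * ξ i.succ) := by
  rw [Fin.sum_univ_succ, ← h0, mul_add, Finset.mul_sum]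
  congr 1
  exact Finset.sum_congr rfl fun i _ => by rw [h i]; ring

lemma beta_ks (l : Fin (n + 1) → E (n + 1) → ℝ) (V : E (n + 1) → ℝ) (f : E n → ℝ)
    (ξ : Fin (n + 1) → ℝ) (i : Fin n) (y : E n) :
    beta (ksL l V) f ξ i y = ξ i.succ - Stmt.pd i f y * ξ 0 +
      V (pt (f y) y) * KSN.W.Li l f y i * ∑ a, l a (pt (f y) y) * ξ a := by
  have hw : ∑ a, l a (pt (f y) y) * tng f i y a = KSN.W.Li l f y i :=
    KSN.X2.cot_eq f y (fun a => l a (pt (f y) y)) i
  have e1 : ∀ a, ∑ b, ksL l V (pt (f y) y) a b * tng f i y a * ξ b =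
      sgn a * tng f i y a * ξ a +
        V (pt (f y) y) * (l a (pt (f y) y) * tng f i y a) * ∑ b, l b (pt (f y) y) * ξ b := by
    intro a
    unfold ksL
    simp only [add_mul, Finset.sum_add_distrib, ite_mul, zero_mul, Finset.sum_ite_eq,
      Finset.mem_univ, if_true]
    congr 1
    rw [Finset.mul_sum]
    exact Finset.sum_congr rfl fun b _ => by ring
  unfold beta
  simp only [e1, Finset.sum_add_distrib]
  rw [← hw]
  have e2 : ∑ a, V (pt (f y) y) * (l a (pt (f y) y) * tng f i y a) *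
      ∑ b, l b (pt (f y) y) * ξ b = V (pt (f y) y) * (∑ a, l a (pt (f y) y) * tng f i y a) *
      ∑ b, l b (pt (f y) y) * ξ b := by
    rw [← Finset.sum_mul, ← Finset.mul_sum]
  rw [e2]
  congr 1
  rw [Fin.sum_univ_succ]
  simp only [tng, Fin.cons_zero, Fin.cons_succ, sgn, if_true, Fin.succ_ne_zero, if_false, one_mul]
  have e3 : ∑ j : Fin n, Pi.single (M := fun _ => ℝ) i 1 j * ξ j.succ = ξ i.succ := by
    rw [Finset.sum_eq_single i]
    · simp
    · intro b _ hb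
      simp [hb]
    · simp
  rw [e3]
  ring

/-- pointwise algebra: `α + β(ν) = s a_x / S` -/
lemma pt_alg (p : H375.Pt n) (ξ : Fin (n + 1) → ℝ) :
    1 / p.s * (ξ 0 - ∑ i, p.f i * ξ i.succ) +
      ∑ i, (ξ i.succ - p.f i * ξ 0 + p.v * p.F i * (ξ 0 + ∑ j, p.u j * ξ j.succ)) * p.N i =
    p.s / p.S * (ξ 0 + ∑ j, p.u j * ξ j.succ) := by
  have hs0 : p.s ≠ 0 := p.s0.ne'
  have hS0 : p.S ≠ 0 := p.S0.ne'
  have hs := p.hs
  obtain ⟨A, hA⟩ : ∃ A, A = ∑ j, p.u j * ξ j.succ := ⟨_, rfl⟩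
  obtain ⟨B, hB⟩ : ∃ B, B = ∑ j, p.f j * ξ j.succ := ⟨_, rfl⟩
  rw [← hA, ← hB]
  have h1 : ∀ w : Fin n → ℝ, ∑ i, w i * p.N i =
      p.s / p.S * (∑ i, w i * p.u i) + 1 / p.s * ∑ i, p.m i * w i := by
    intro w
    rw [Finset.mul_sum, Finset.mul_sum, ← Finset.sum_add_distrib]
    refine Finset.sum_congr rfl fun i _ => ?_
    unfold H375.Pt.N
    ring
  have h2 : ∑ i, (ξ i.succ - p.f i * ξ 0 + p.v * p.F i * (ξ 0 + A)) * p.N i =
      ∑ i, (fun i => ξ i.succ) i * p.N i - ξ 0 * ∑ i, p.f i * p.N i +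
        p.v * (ξ 0 + A) * ∑ i, p.F i * p.N i := by
    rw [Finset.mul_sum, Finset.mul_sum, ← Finset.sum_sub_distrib, ← Finset.sum_add_distrib]
    exact Finset.sum_congr rfl fun i _ => by ring
  have h3 : ∑ i : Fin n, (fun i => ξ i.succ) i * p.u i = A := by
    rw [hA]
    exact Finset.sum_congr rfl fun i _ => by ring
  have h4 : ∑ i : Fin n, p.m i * (fun i => ξ i.succ) i = B - p.v * p.S * A := by
    rw [p.sum_m, hA, hB]
  rw [h2, h1, h1, h1, h3, h4, p.fu, p.mf, p.Fu, p.mF]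
  field_simp
  linear_combination (-(ξ 0 * p.S)) * hs

/-- **(b2)** `α + β(ν) = a_x / (lapse τ)` on the boundary. -/
theorem alpha_beta {p : H375.Pt n} {k0 : ℝ} {ξ : Fin (n + 1) → ℝ}
    (hk0 : k0 = l 0 (pt (f y) y)) (hn : ∀ i : Fin n, l i.succ (pt (f y) y) = k0 * p.u i)
    (pf : ∀ i, p.f i = Stmt.pd i f y) (pv : p.v = V (pt (f y) y) * k0 ^ 2)
    (hl : lapse (ksL l V) f y = 1 / p.s) :
    alpha (ksL l V) f ξ y + ∑ i, beta (ksL l V) f ξ i y * p.N i =
      p.s / p.S * (ξ 0 + ∑ j, p.u j * ξ j.succ) := by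
  rw [← pt_alg]
  have e1 : alpha (ksL l V) f ξ y = 1 / p.s * (ξ 0 - ∑ i, p.f i * ξ i.succ) := by
    unfold alpha
    rw [hl, Fin.sum_univ_succ]
    congr 1
    simp only [con, Fin.cons_zero, Fin.cons_succ, one_mul, neg_mul, Finset.sum_neg_distrib,
      pf, sub_eq_add_neg]
  rw [e1]
  congr 1
  refine Finset.sum_congr rfl fun i _ => ?_
  have e2 : KSN.W.Li l f y i = k0 * p.F i := by
    unfold KSN.W.Li H375.Pt.F
    rw [hn i, ← hk0, pf i]
    ring
  rw [beta_ks, l_xi hk0 hn, e2, pv, pf i]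
  ring

/-! ### the flux of the correction through the boundary -/

lemma beta_bet (l : Fin (n + 1) → E (n + 1) → ℝ) (V : E (n + 1) → ℝ) (f : E n → ℝ)
    (ξ : Fin (n + 1) → ℝ) (i : Fin n) (y : E n) :
    beta (ksL l V) f ξ i y = bet (ksL l V) f ξ i y := by
  unfold beta bet GC.ip
  rw [Finset.sum_comm]
  refine Finset.sum_congr rfl fun a _ => Finset.sum_congr rfl fun b _ => ?_
  unfold GC.Tv ksL
  by_cases h : a = b
  · subst h; ring
  · rw [if_neg h, if_neg (Ne.symm h)]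
    ring

/-- the flux of the correction through the boundary is `k(ν, β)` -/
theorem Bk_bdr {p : H375.Pt n} {k : Stmt.Field n} {ξ : Fin (n + 1) → ℝ} {g : Stmt.Field n}
    {cb : Fin n → ℝ} (hg : ∀ i j, g y i j = indG (ksL l V) f y i j)
    (hl : lapse (ksL l V) f y = 1 / p.s) (hup : ∀ i j, Stmt.up g i j y = p.U i j)
    (hcb : ∀ i, cb i = p.F i / p.S) :
    ∑ i, Bk (ksL l V) f k ξ i y * cb i =
      ∑ i, ∑ j, k y i j * p.N i * ∑ m, Stmt.up g j m y * beta (ksL l V) f ξ m y := by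
  have hs0 : p.s ≠ 0 := p.s0.ne'
  have hS0 : p.S ≠ 0 := p.S0.ne'
  have hup' : ∀ i j, Stmt.up (indG (ksL l V) f) i j y = p.U i j := fun i j => by
    rw [← hup]
    have h : indG (ksL l V) f y = g y := funext fun i => funext fun j => (hg i j).symm
    simp only [Stmt.up, Stmt.mat, h]
  have e1 : ∀ i, Bk (ksL l V) f k ξ i y * cb i =
      ∑ m, (p.s / p.S * (p.U m i * p.F i)) * kb (indG (ksL l V) f) k (bet (ksL l V) f ξ) m y := by
    intro i
    unfold Bk
    rw [hl, hcb, one_div, inv_inv, Finset.mul_sum, Finset.sum_mul]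
    refine Finset.sum_congr rfl fun m _ => ?_
    rw [hup', p.U_symm i m]
    ring
  simp only [e1]
  rw [Finset.sum_comm]
  have e2 : ∀ m, ∑ i, (p.s / p.S * (p.U m i * p.F i)) *
      kb (indG (ksL l V) f) k (bet (ksL l V) f ξ) m y =
      p.N m * kb (indG (ksL l V) f) k (bet (ksL l V) f ξ) m y := by
    intro m
    rw [← Finset.sum_mul, ← Finset.mul_sum, p.UF]
    unfold H375.Pt.N
    field_simp
  simp only [e2]
  refine Finset.sum_congr rfl fun m _ => ?_
  unfold kb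
  rw [Finset.mul_sum]
  refine Finset.sum_congr rfl fun j _ => ?_
  rw [Finset.mul_sum, Finset.mul_sum]
  refine Finset.sum_congr rfl fun q _ => ?_
  rw [hup', hup, beta_bet]
  ring

/-! ### the boundary inequality -/

lemma trS_of (g k : Stmt.Field n) (F : E n → ℝ) (y : E n) (h : Stmt.tr g k y = 0) :
    Stmt.trS g k F y = -∑ i, ∑ j, k y i j * Stmt.nrm g F i y * Stmt.nrm g F j y := by
  unfold Stmt.trS
  rw [h, zero_sub]

/-- **(b3)** the boundary inequality for the vector `ξ` -/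
theorem bd_gen [Fact (3 ≤ n)] {ξ : Fin (n + 1) → ℝ} (hS : IsSliceL C l V f D₀)
    (hR : IsRef l V f ξ D₀ D) (hT : D.Trapped) {T : Ten n} (hA : T.A = C.toDat.A)
    (hb : T.b = C.toDat.b) (hx : ‖x‖ = 1) (hax : 0 ≤ ξ 0 + ∑ i : Fin n, x i * ξ i.succ) :
    qT T x * (ξ 0 + ∑ i : Fin n, x i * ξ i.succ) ≤
      wS C l V x * (ξ 0 + ∑ i : Fin n, x i * ξ i.succ) +
        2 * (dts C.H (C.U x) x * ∑ i, Bk (ksL l V) f (dif D₀ D) ξ i (Y C.H x (C.U x)) *
          (x i - C.toDat.b x i)) := by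
  have hx0 := ne_zero_of_one hx
  have h0 := posU' C hx
  obtain ⟨p, k0, hk0p, hk0, hn, pf, pu, pv, pS, hlap, hup, hnrm, hcob⟩ := bdr_pt hS hx
  have hth := KSL.theta_Y hS hA hb hx
  have hd := dts_pos C hx (le_refl (C.U x))
  have hF0 : D₀.F (Y C.H x (C.U x)) = 0 := by
    have h := hS.bdF (C.U x • x) (smul_ne_zero h0.ne' hx0)
      (by rw [KSN.norm_smul_unit hx h0.le, KSN.U_smul C hx0 h0])
    rwa [KSN.Y_eq C hx h0] at h
  have hm := mem_Y hS.dom hx (le_refl (C.U x))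
  have hmet := hS.met _ hm
  rw [← pS] at hth
  generalize Y C.H x (C.U x) = y at *
  have hF0' : D.F y = 0 := by rw [← hR.dom]; exact hF0
  have hbd := hR.bdr y hF0'
  have htr := hR.tr y hF0'.ge
  have hn' : ∀ i : Fin n, l i.succ (pt (f y) y) = k0 * p.u i := fun i => by rw [hn i, pu i]
  have hflux := Bk_bdr (k := dif D₀ D) (ξ := ξ) (cb := fun i => x i - C.toDat.b x i) hmet hlap hup
    hcob
  have hab := alpha_beta (ξ := ξ) hk0 hn' pf pv hlap
  rw [hR.met] at hup hnrm hflux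
  rw [hR.dom] at hnrm
  -- the expansion
  have hθ := hT y hF0'
  have h2 : Stmt.thetaPlus D.g D.K D.F y = Stmt.thetaPlus D.g (add D₀.K (dif D₀ D)) D.F y :=
    thetaPlus_congrK fun i j => by unfold add dif; ring
  rw [h2, thetaPlus_add, trS_of _ _ _ _ htr] at hθ
  rw [hR.met, hR.dom, hlap] at hth
  simp only [hnrm] at hθ hbd
  simp only [pu] at hab
  rw [hab] at hbd
  rw [hflux]
  generalize (∑ i, ∑ j, dif D₀ D y i j * p.N i * p.N j) = kν at *
  generalize (∑ i, ∑ j, dif D₀ D y i j * p.N i *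
    ∑ m, Stmt.up D.g j m y * beta (ksL l V) f ξ m y) = kb at *
  generalize Stmt.thetaPlus D.g D₀.K D.F y = θ at *
  generalize (ξ 0 + ∑ i : Fin n, x i * ξ i.succ) = ax at *
  generalize dts C.H (C.U x) x = d at *
  have hs0 := p.s0
  have hS0 := p.S0
  have hkey : (qT T x - wS C l V x) * ax = d * (p.s / p.S * ax) * θ := by
    have : qT T x - wS C l V x = p.s / p.S * (θ * d) := by
      rw [hth]; field_simp
    rw [this]; ring
  have h3 : d * (p.s / p.S * ax) * θ ≤ d * (p.s / p.S * ax) * kν :=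
    mul_le_mul_of_nonneg_left (by linarith)
      (mul_nonneg hd.le (mul_nonneg (div_pos hs0 hS0).le hax))
  have h4 : d * (p.s / p.S * ax) * kν ≤ d * (2 * kb) := by
    rw [mul_assoc]
    exact mul_le_mul_of_nonneg_left hbd hd.le
  nlinarith

lemma Bk_mul (G : Stmt.Field (n + 1)) (f : E n → ℝ) (k : Stmt.Field n) (c : ℝ)
    (ξ : Fin (n + 1) → ℝ) (i : Fin n) (y : E n) :
    Bk G f k (fun b => c * ξ b) i y = c * Bk G f k ξ i y := by
  have h1 : ∀ q, bet G f (fun b => c * ξ b) q y = c * bet G f ξ q y := by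
    intro q
    unfold bet GC.ip
    simp only [Finset.mul_sum]
    exact Finset.sum_congr rfl fun a _ => Finset.sum_congr rfl fun b _ => by ring
  unfold Bk kb
  simp only [h1, Finset.mul_sum]
  exact Finset.sum_congr rfl fun a _ => Finset.sum_congr rfl fun b _ =>
    Finset.sum_congr rfl fun d _ => by ring

/-- **[s4]** the field `bdB` of `PosB` for the frame of `ξ` -/
theorem bdB_of [Fact (3 ≤ n)] {ξ : Fin (n + 1) → ℝ} (hξ : IsFut ξ) (hS : IsSliceL C l V f D₀)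
    (hR : IsRef l V f ξ D₀ D) (hT : D.Trapped) (T : Ten n) (hA : T.A = C.toDat.A)
    (hb : T.b = C.toDat.b) (x : E n) (hx : ‖x‖ = 1) :
    qT T x * (Shell.e0 (aa ξ) + ∑ i, aa ξ i * x i) ≤
      KSD.wB C l V (aa ξ) (fun i => Bk (ksL l V) f (dif D₀ D) (xi (aa ξ)) i) x := by
  have hN := KSD.NN_pos hξ.2
  have h1 : ξ = fun b => NN ξ * xi (aa ξ) b := funext fun b => by
    rw [KSD.xi_aa hξ.2 hξ.1]; field_simp
  have hax : ξ 0 + ∑ i : Fin n, x i * ξ i.succ =
      NN ξ * (Shell.e0 (aa ξ) + ∑ i, aa ξ i * x i) := by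
    rw [mul_add, Finset.mul_sum, KSD.e0_aa hξ.2 hξ.1]
    congr 1
    · field_simp
    · exact Finset.sum_congr rfl fun i _ => by unfold KSD.aa; field_simp
  have hp := KSL.ax_pos (aa ξ) hx
  have h := bd_gen hS hR hT hA hb hx (by rw [hax]; exact (mul_pos hN hp).le)
  rw [hax] at h
  have hB : ∀ i, Bk (ksL l V) f (dif D₀ D) ξ i (Y C.H x (C.U x)) =
      NN ξ * Bk (ksL l V) f (dif D₀ D) (xi (aa ξ)) i (Y C.H x (C.U x)) := fun i => by
    rw [← Bk_mul, ← h1]
  have hsum : ∑ i, Bk (ksL l V) f (dif D₀ D) ξ i (Y C.H x (C.U x)) * (x i - C.toDat.b x i) =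
      NN ξ * ∑ i, Bk (ksL l V) f (dif D₀ D) (xi (aa ξ)) i (Y C.H x (C.U x)) *
        (x i - C.toDat.b x i) := by
    rw [Finset.mul_sum]
    exact Finset.sum_congr rfl fun i _ => by rw [hB]; ring
  rw [hsum] at h
  unfold KSD.wB
  refine le_of_mul_le_mul_left ?_ hN
  linarith

end Vale.Agent.P366.SH
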