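import Vale.Agent.P366.H375.W.W6
import Vale.Agent.P366.H353.S.Defs
import Vale.Agent.P366.Kerr.DefsS
import Vale.Agent.P366.H222.K.Frame

/-! Adding a tensor `k` to the second fundamental form, with `k - (tr k) g` vanishing on the normal
of the boundary: the boundary terms. -/

open MeasureTheory Metric Filter Topology Set
open scoped ContDiff ENNReal

noncomputable section
namespace Vale.Agent.P366.SH

open Vale.Agent.P366 (pd E)
open Vale.Agent.P366.H353.N
open Vale.Agent.P366.H353.N.X3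
open Vale.Agent.P366.Kerr (NullCone Psi pt sp indG indK ksL IsKS IsGraph IsSliceL lapse resL tng con)
open Vale.Agent.P366.KSN (Y dts sg posU')
open Vale.Agent.P366.KSL (bdr_grad bdr_dF_pos tau_pos_bdr mem_Y dom_iff)

variable {n : ℕ}

/-! ### algebra at a point -/

section Pt
variable {g K k : Stmt.Field n} {F : E n → ℝ} {x : E n}

lemma upx_symm (hs : ∀ i j, g x i j = g x j i) (i j : Fin n) :
    Stmt.up g i j x = Stmt.up g j i x := by
  have h1 : (Stmt.mat g x).transpose = Stmt.mat g x := by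
    ext a b
    exact hs b a
  have h2 : ((Stmt.mat g x)⁻¹).transpose = (Stmt.mat g x)⁻¹ := by
    rw [Matrix.transpose_nonsing_inv, h1]
  calc Stmt.up g i j x = ((Stmt.mat g x)⁻¹).transpose j i := rfl
    _ = _ := by rw [h2]; rfl

lemma g_upx (hp : (Stmt.mat g x).PosDef) (i a : Fin n) :
    ∑ j, g x i j * Stmt.up g j a x = if i = a then 1 else 0 := by
  have h := Matrix.mul_nonsing_inv (Stmt.mat g x) ((Matrix.isUnit_iff_isUnit_det _).1
    hp.isUnit)
  have h2 := congrFun (congrFun h i) a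
  rw [Matrix.mul_apply, Matrix.one_apply] at h2
  exact h2

lemma cov_pos (hp : (Stmt.mat g x).PosDef) {w : Fin n → E n → ℝ} (hw : ∃ i, w i x ≠ 0) :
    0 < ∑ i, ∑ j, Stmt.up g i j x * w i x * w j x := by
  have h1 := hp.inv
  obtain ⟨i, hi⟩ := hw
  have h2 := h1.dotProduct_mulVec_pos (x := fun i => w i x) (fun h => hi (congrFun h i))
  have h3 : star (fun i => w i x) ⬝ᵥ (Stmt.mat g x)⁻¹.mulVec (fun i => w i x) =
      ∑ i, ∑ j, Stmt.up g i j x * w i x * w j x := by
    simp only [dotProduct, Matrix.mulVec, Pi.star_apply, star_trivial, Finset.mul_sum]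
    exact Finset.sum_congr rfl fun i _ => Finset.sum_congr rfl fun j _ => by
      unfold Stmt.up; ring
  rw [h3] at h2
  exact h2

lemma covNorm_pos (hp : (Stmt.mat g x).PosDef) {w : Fin n → E n → ℝ} (hw : ∃ i, w i x ≠ 0) :
    0 < Stmt.covNorm g w x := Real.sqrt_pos.2 (cov_pos hp hw)

lemma g_nrm (hp : (Stmt.mat g x).PosDef) (i : Fin n) :
    ∑ j, g x i j * Stmt.nrm g F j x = Stmt.pd i F x / Stmt.covNorm g (fun j => Stmt.pd j F) x := by
  unfold Stmt.nrm
  have e : ∀ j, g x i j * ((∑ a, Stmt.up g j a x * Stmt.pd a F x) /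
      Stmt.covNorm g (fun j => Stmt.pd j F) x) =
      (∑ a, (g x i j * Stmt.up g j a x) * Stmt.pd a F x) /
        Stmt.covNorm g (fun j => Stmt.pd j F) x := by
    intro j
    rw [← mul_div_assoc, Finset.mul_sum]
    congr 1
    exact Finset.sum_congr rfl fun a _ => by ring
  simp only [e, ← Finset.sum_div]
  congr 1
  rw [Finset.sum_comm]
  simp only [← Finset.sum_mul, g_upx hp]
  simp

lemma nrm_nrm (hp : (Stmt.mat g x).PosDef)
    (hF : ∃ i, Stmt.pd i F x ≠ 0) :
    ∑ i, ∑ j, g x i j * Stmt.nrm g F i x * Stmt.nrm g F j x = 1 := by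
  have hc := covNorm_pos hp (w := fun j => Stmt.pd j F) hF
  have h2 := cov_pos hp (w := fun j => Stmt.pd j F) hF
  have e : ∀ i, ∑ j, g x i j * Stmt.nrm g F i x * Stmt.nrm g F j x =
      Stmt.nrm g F i x * (Stmt.pd i F x / Stmt.covNorm g (fun j => Stmt.pd j F) x) := by
    intro i
    rw [← g_nrm hp i, Finset.mul_sum]
    exact Finset.sum_congr rfl fun j _ => by ring
  simp only [e]
  have h3 : Stmt.covNorm g (fun j => Stmt.pd j F) x ^ 2 =
      ∑ i, ∑ j, Stmt.up g i j x * Stmt.pd i F x * Stmt.pd j F x := Real.sq_sqrt h2.le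
  have e2 : ∀ i, Stmt.nrm g F i x * (Stmt.pd i F x / Stmt.covNorm g (fun j => Stmt.pd j F) x) =
      (∑ j, Stmt.up g i j x * Stmt.pd i F x * Stmt.pd j F x) /
        Stmt.covNorm g (fun j => Stmt.pd j F) x ^ 2 := by
    intro i
    unfold Stmt.nrm
    rw [div_mul_div_comm, ← pow_two, Finset.sum_mul]
    congr 1
    exact Finset.sum_congr rfl fun j _ => by ring
  simp only [e2, ← Finset.sum_div]
  rw [← h3, div_self (pow_pos hc 2).ne']

/-- the trace of `k` over the boundary vanishes -/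
lemma trS_zero (hp : (Stmt.mat g x).PosDef)
    (hF : ∃ i, Stmt.pd i F x ≠ 0)
    (hk : ∀ i, ∑ j, Stmt.momT g k x i j * Stmt.nrm g F j x = 0) : Stmt.trS g k F x = 0 := by
  have h1 : ∑ i, Stmt.nrm g F i x * ∑ j, Stmt.momT g k x i j * Stmt.nrm g F j x = 0 := by
    simp only [hk, mul_zero, Finset.sum_const_zero]
  have h2 : ∑ i, Stmt.nrm g F i x * ∑ j, Stmt.momT g k x i j * Stmt.nrm g F j x =
      (∑ i, ∑ j, k x i j * Stmt.nrm g F i x * Stmt.nrm g F j x) -
        Stmt.tr g k x * ∑ i, ∑ j, g x i j * Stmt.nrm g F i x * Stmt.nrm g F j x := by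
    rw [Finset.mul_sum, ← Finset.sum_sub_distrib]
    refine Finset.sum_congr rfl fun i _ => ?_
    rw [Finset.mul_sum, Finset.mul_sum, ← Finset.sum_sub_distrib]
    refine Finset.sum_congr rfl fun j _ => ?_
    unfold Stmt.momT
    ring
  rw [nrm_nrm hp hF] at h2
  unfold Stmt.trS
  linarith

lemma thetaPlus_add (g K k : Stmt.Field n) (F : E n → ℝ) (x : E n) :
    Stmt.thetaPlus g (add K k) F x = Stmt.thetaPlus g K F x + Stmt.trS g k F x := by
  unfold Stmt.thetaPlus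
  have : Stmt.trS g (add K k) F x = Stmt.trS g K F x + Stmt.trS g k F x := by
    unfold Stmt.trS
    rw [tr_add]
    unfold add
    simp only [add_mul, Finset.sum_add_distrib]
    ring
  rw [this]
  ring

lemma thetaPlus_congrK {K K' : Stmt.Field n} (h : ∀ i j, K x i j = K' x i j) :
    Stmt.thetaPlus g K F x = Stmt.thetaPlus g K' F x := by
  unfold Stmt.thetaPlus Stmt.trS Stmt.tr
  simp only [h]

end Pt

/-! ### the boundary is trapped for the Kerr-Schild data -/

/-- **[s4]** the boundary of `D₀` is weakly future trapped. -/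
theorem trapped_sub {D D₀ : Stmt.Exterior n} {k : Stmt.Field n} (hF : D₀.F = D.F)
    (hg : D₀.g = D.g) (hK : ∀ y, D.F y = 0 → ∀ i j, D.K y i j = D₀.K y i j + k y i j)
    (hk : ∀ y, D.F y = 0 → ∀ i, ∑ j, Stmt.momT D.g k y i j * Stmt.nrm D.g D.F j y = 0)
    (hT : D.Trapped) : D₀.Trapped := by
  intro y hy
  rw [hF] at hy
  have h1 := hT y hy
  have h2 : Stmt.thetaPlus D.g D.K D.F y = Stmt.thetaPlus D.g (add D₀.K k) D.F y :=
    thetaPlus_congrK (hK y hy)
  rw [h2, thetaPlus_add, trS_zero (D.pos y hy.ge)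
    (D.dom.2.1 y hy) (hk y hy), add_zero] at h1
  rw [hF, hg]
  exact h1

/-! ### the normal of the boundary -/

variable {C : NullCone n} {l : Fin (n + 1) → E (n + 1) → ℝ} {V : E (n + 1) → ℝ}
  {f : E n → ℝ} {D : Stmt.Exterior n} {x y : E n}

lemma bdr_of_F (hS : IsSliceL C l V f D) (hy : D.F y = 0) :
    ∃ x : E n, ‖x‖ = 1 ∧ y = Y C.H x (C.U x) := by
  obtain ⟨x, s, hx, hs, rfl⟩ := (dom_iff hS.dom).1 hy.ge
  rcases hs.lt_or_eq with h | h
  · exact absurd hy (KSL.F_pos hS.dom hx h).ne'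
  · subst h
    exact ⟨x, hx, rfl⟩

/-- the differential of the defining function on the boundary -/
theorem dF_bdr [Fact (3 ≤ n)] (hS : IsSliceL C l V f D) (hx : ‖x‖ = 1) :
    ∃ r : ℝ, 0 < r ∧ ∀ i, Stmt.pd i D.F (Y C.H x (C.U x)) =
      r * (Stmt.pd i f (Y C.H x (C.U x)) + x i) := by
  have hm := mem_Y hS.dom hx (le_refl (C.U x))
  have hfd : DifferentiableAt ℝ f (Y C.H x (C.U x)) := (hS.smf _ hm).differentiableAt (by simp)
  have htp := tau_pos_bdr hS hx
  have h1 := fun i => bdr_grad hS.bdF hS.bdr hfd hx i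
  have h2 := bdr_dF_pos hS.dom hS.bdF hS.bdr hfd htp.ne' hx
  refine ⟨(∑ j, x j * pd j D.F (Y C.H x (C.U x))) / (1 + ∑ i, x i * pd i f (Y C.H x (C.U x))),
    div_pos h2 htp, fun i => ?_⟩
  have e1 : Stmt.pd i D.F (Y C.H x (C.U x)) = pd i D.F (Y C.H x (C.U x)) :=
    KSN.X2.stmt_pd' (D.dom.1.contDiffAt) i
  have e2 : Stmt.pd i f (Y C.H x (C.U x)) = pd i f (Y C.H x (C.U x)) :=
    KSN.X2.stmt_pd' (hS.smf _ hm) i
  rw [e1, e2, div_mul_eq_mul_div, eq_div_iff htp.ne', ← h1 i]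
  ring

/-- the restriction of `l` on the boundary -/
lemma res_bdr (hS : IsSliceL C l V f D) (hx : ‖x‖ = 1) (i : Fin n) :
    resL l f i (Y C.H x (C.U x)) = l 0 (pt (f (Y C.H x (C.U x))) (Y C.H x (C.U x))) *
      (Stmt.pd i f (Y C.H x (C.U x)) + x i) := by
  have h0 := posU' C hx
  have hx0 := ne_zero_of_one hx
  have hb : f (Y C.H x (C.U x)) = - C.U x := by
    have := KSL.bd_Y (β := fun z => - C.U z) hS.bdr hx
    rw [this, KSN.U_smul C hx0 h0]
  have hn : l i.succ (pt (f (Y C.H x (C.U x))) (Y C.H x (C.U x))) =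
      l 0 (pt (f (Y C.H x (C.U x))) (Y C.H x (C.U x))) * x i := by
    have h := hS.nor (C.U x • x) (smul_ne_zero h0.ne' hx0)
      (by rw [KSN.norm_smul_unit hx h0.le, KSN.U_smul C hx0 h0]) i
    rw [KSN.U_smul C hx0 h0, KSN.Y_eq C hx h0, KSN.norm_smul_unit hx h0.le] at h
    rw [hb, h]
    have : (C.U x • x) i / C.U x = x i := by
      have : (C.U x • x) i = C.U x * x i := by simp
      rw [this]; field_simp
    rw [this]
  have h1 : resL l f i (Y C.H x (C.U x)) = KSN.W.Li l f (Y C.H x (C.U x)) i := by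
    unfold resL
    exact KSN.X2.cot_eq f _ _ i
  rw [h1]
  unfold KSN.W.Li
  rw [hn]
  ring

/-- on the boundary the restriction of `l` is a positive multiple of the differential of `F` -/
theorem res_dF [Fact (3 ≤ n)] (hS : IsSliceL C l V f D) (hy : D.F y = 0) :
    ∃ c : ℝ, 0 < c ∧ ∀ i, resL l f i y = c * Stmt.pd i D.F y := by
  obtain ⟨x, hx, rfl⟩ := bdr_of_F hS hy
  obtain ⟨r, hr, h⟩ := dF_bdr hS hx
  have hl := (hS.ks _ hy.ge).fut
  refine ⟨l 0 (pt (f (Y C.H x (C.U x))) (Y C.H x (C.U x))) / r, div_pos hl hr, fun i => ?_⟩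
  rw [res_bdr hS hx, h i]
  field_simp

/-- the conormal of the boundary -/
theorem cob_bdr [Fact (3 ≤ n)] (hS : IsSliceL C l V f D) (hx : ‖x‖ = 1) :
    ∃ c : ℝ, 0 < c ∧ ∀ i, x i - C.toDat.b x i = c * Stmt.pd i D.F (Y C.H x (C.U x)) := by
  obtain ⟨r, hr, h⟩ := dF_bdr hS hx
  obtain ⟨T, hTA, hTb, -⟩ := toTen C.toDat
  have B := KSN.W.mkB hS hTA hTb
  have htp : 0 < tt C.H C.U f x := B.tt_pos (ne_zero_of_one hx)
  refine ⟨1 / (tt C.H C.U f x * r), by positivity, fun i => ?_⟩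
  have h1 := B.bb_eq hx i
  rw [← hTb, ← h1]
  have hm := mem_Y hS.dom hx (le_refl (C.U x))
  have e2 : Stmt.pd i f (Y C.H x (C.U x)) = pd i f (Y C.H x (C.U x)) :=
    KSN.X2.stmt_pd' (hS.smf _ hm) i
  have e3 : Fv C.H C.U f i x = pd i f (Y C.H x (C.U x)) := by
    rw [← KSN.W.zz_Y C hx]; rfl
  rw [h i, e2, ← e3]
  unfold bb
  rw [nv_one hx]
  field_simp
  ring

end Vale.Agent.P366.SH
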